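import Vale.Agent.Lib.P307.EmptyVocab

/-!
# Basic theory of abstract elementary classes: the relation `≤_K` between substructures of
an ambient structure, and directed unions.
-/

namespace Vale.Agent.Lib.P307

open FirstOrder Language Cardinal Set

universe u

variable {L : FirstOrder.Language.{u, u}}

/-- For `T ≤ U`, the substructure `T` is isomorphic to its trace on `U`. -/
def traceEquiv {A : Type u} [L.Structure A] {T U : L.Substructure A} (h : T ≤ U) :
    T ≃[L] (T.comap U.subtype.toHom : L.Substructure U) where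
  toFun x := ⟨⟨x.1, h x.2⟩, x.2⟩
  invFun y := ⟨y.1.1, y.2⟩
  left_inv _ := rfl
  right_inv _ := rfl
  map_fun' _ _ := rfl
  map_rel' _ _ := Iff.rfl

/-- `S ≤_K T` for two substructures of an ambient structure. -/
def AEC.Le (K : AEC L) {A : Type u} [L.Structure A] (S T : L.Substructure A) : Prop :=
  S ≤ T ∧ K.Strong (S.comap T.subtype.toHom)

variable (K : AEC L) {A : Type u} [L.Structure A]

theorem AEC.strong_map_iff {M N : Type u} [L.Structure M] [L.Structure N] (f : M ≃[L] N)
    (S : L.Substructure M) : K.Strong (S.map f.toHom) ↔ K.Strong S := by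
  refine ⟨fun h => ?_, K.strong_of_equiv f S⟩
  have h2 := K.strong_of_equiv f.symm _ h
  have h3 : (S.map f.toHom).map f.symm.toHom = S := by
    ext x
    simp only [Substructure.mem_map]
    constructor
    · rintro ⟨y, ⟨z, hz, rfl⟩, rfl⟩
      simpa using hz
    · intro hx
      exact ⟨f x, ⟨x, hx, rfl⟩, by simp⟩
  rwa [h3] at h2

theorem AEC.Le.le {K : AEC L} {S T : L.Substructure A} (h : K.Le S T) : S ≤ T := h.1

theorem AEC.le_refl {S : L.Substructure A} (h : K.Mem S) : K.Le S S := by
  refine ⟨le_rfl, ?_⟩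
  have h1 : S.comap S.subtype.toHom = ⊤ := by
    ext x
    simp [Substructure.mem_comap]
  rw [h1]
  exact K.strong_top h

theorem AEC.Le.mem_right {K : AEC L} {S T : L.Substructure A} (h : K.Le S T) : K.Mem T :=
  (K.mem_of_strong _ h.2).2

theorem AEC.Le.mem_left {K : AEC L} {S T : L.Substructure A} (h : K.Le S T) : K.Mem S :=
  K.mem_of_equiv (traceEquiv h.1).symm (K.mem_of_strong _ h.2).1

theorem AEC.Le.trans {K : AEC L} {S T U : L.Substructure A} (h1 : K.Le S T) (h2 : K.Le T U) :
    K.Le S U := by
  refine ⟨h1.1.trans h2.1, ?_⟩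
  have h3 := K.strong_of_equiv (traceEquiv h2.1) _ h1.2
  have h4 := K.strong_trans _ _ h2.2 h3
  have h5 : ((S.comap T.subtype.toHom).map (traceEquiv h2.1).toHom).map
      (T.comap U.subtype.toHom).subtype.toHom = S.comap U.subtype.toHom := by
    ext z
    simp only [Substructure.mem_map, Substructure.mem_comap]
    constructor
    · rintro ⟨y, ⟨x, hx, rfl⟩, rfl⟩
      exact hx
    · intro hz
      exact ⟨⟨z, h1.1 hz⟩, ⟨⟨z.1, h1.1 hz⟩, hz, rfl⟩, rfl⟩
  rwa [h5] at h4

theorem AEC.Le.coherence {K : AEC L} {S T U : L.Substructure A} (h1 : K.Le S U)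
    (h2 : K.Le T U) (h : S ≤ T) : K.Le S T := by
  refine ⟨h, ?_⟩
  have h3 := K.coherence (S.comap U.subtype.toHom) (T.comap U.subtype.toHom)
    (fun x hx => h hx) h1.2 h2.2
  have h4 := K.strong_of_equiv (traceEquiv h2.1).symm _ h3
  have h5 : (((S.comap U.subtype.toHom).comap (T.comap U.subtype.toHom).subtype.toHom).map
      (traceEquiv h2.1).symm.toHom) = S.comap T.subtype.toHom := by
    ext z
    simp only [Substructure.mem_map, Substructure.mem_comap]
    constructor
    · rintro ⟨y, hy, rfl⟩
      exact hy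
    · intro hz
      exact ⟨traceEquiv h2.1 z, hz, by simp⟩
  rwa [h5] at h4

theorem AEC.le_top_iff {S : L.Substructure A} : K.Le S ⊤ ↔ K.Strong S := by
  have h5 : (S.comap (⊤ : L.Substructure A).subtype.toHom).map
      (Substructure.topEquiv (L := L) (M := A)).toHom = S := by
    ext z
    simp only [Substructure.mem_map, Substructure.mem_comap]
    constructor
    · rintro ⟨y, hy, rfl⟩
      exact hy
    · intro hz
      exact ⟨⟨z, Substructure.mem_top z⟩, hz, rfl⟩
  constructor
  · intro h
    have := K.strong_of_equiv Substructure.topEquiv _ h.2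
    rwa [h5] at this
  · intro h
    refine ⟨le_top, ?_⟩
    rw [← K.strong_map_iff Substructure.topEquiv, h5]
    exact h

theorem AEC.chain_union' {ι : Type u} [LinearOrder ι] [WellFoundedLT ι] [Nonempty ι]
    (S : ι → L.Substructure A) (hmono : Monotone S)
    (h : ∀ i j, i ≤ j → K.Le (S i) (S j)) :
    K.Mem (⨆ i, S i : L.Substructure A) ∧ ∀ i, K.Le (S i) (⨆ i, S i) := by
  obtain ⟨h1, h2⟩ := K.chain_union S hmono (fun i j hij => (h i j hij).2)
  exact ⟨h1, fun i => ⟨le_iSup S i, h2 i⟩⟩

theorem AEC.chain_strong' {ι : Type u} [LinearOrder ι] [WellFoundedLT ι] [Nonempty ι]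
    (S : ι → L.Substructure A) (hmono : Monotone S) (T : L.Substructure A)
    (h : ∀ i, K.Le (S i) T) : K.Le (⨆ i, S i) T := by
  refine ⟨iSup_le fun i => (h i).1, ?_⟩
  have h1 := K.chain_strong (fun i => (S i).comap T.subtype.toHom)
    (fun i j hij x hx => hmono hij hx) (fun i => (h i).2)
  have hd : Directed (· ≤ ·) S := hmono.directed_le
  have hd' : Directed (· ≤ ·) (fun i => (S i).comap T.subtype.toHom) :=
    (show Monotone (fun i => (S i).comap T.subtype.toHom) from
      fun i j hij x hx => hmono hij hx).directed_le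
  have h2 : (⨆ i, S i).comap T.subtype.toHom = ⨆ i, (S i).comap T.subtype.toHom := by
    ext x
    rw [Substructure.mem_comap, Substructure.mem_iSup_of_directed hd,
      Substructure.mem_iSup_of_directed hd']
    simp [Substructure.mem_comap]
  rw [h2]
  exact h1

/-- The conclusion of the directed-union lemma for a family of substructures. -/
def AEC.IsDU (K : AEC L) {A : Type u} [L.Structure A] {ι : Type u}
    (S : ι → L.Substructure A) : Prop :=
  K.Mem (⨆ i, S i : L.Substructure A) ∧ (∀ i, K.Le (S i) (⨆ i, S i)) ∧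
    ∀ T : L.Substructure A, (∀ i, K.Le (S i) T) → K.Le (⨆ i, S i) T

theorem AEC.isDU_of_countable {ι : Type u} [Nonempty ι] [Countable ι]
    (S : ι → L.Substructure A) (hd : Directed (· ≤ ·) S)
    (hS : ∀ i j, S i ≤ S j → K.Le (S i) (S j)) : K.IsDU S := by
  obtain ⟨g, hg⟩ := exists_surjective_nat ι
  choose ub hub1 hub2 using hd
  let t : ℕ → ι := fun n => Nat.rec (g 0) (fun n r => ub r (g (n + 1))) n
  have ht : ∀ n, S (t n) ≤ S (t (n + 1)) := fun n => hub1 (t n) (g (n + 1))
  have hg' : ∀ n, S (g n) ≤ S (t n) := by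
    intro n
    cases n with
    | zero => exact le_rfl
    | succ n => exact hub2 (t n) (g (n + 1))
  have hmono : Monotone (fun n => S (t n)) := monotone_nat_of_le_succ ht
  let T : ULift.{u} ℕ → L.Substructure A := fun n => S (t n.down)
  have hTmono : Monotone T := fun a b hab => hmono (ULift.down_le.2 hab)
  have hsup : (⨆ n, T n) = ⨆ i, S i := by
    apply le_antisymm
    · exact iSup_le fun n => le_iSup S (t n.down)
    · refine iSup_le fun i => ?_
      obtain ⟨n, rfl⟩ := hg i
      exact (hg' n).trans (le_iSup T ⟨n⟩)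
  obtain ⟨h1, h2⟩ := K.chain_union' T hTmono (fun a b hab => hS _ _ (hTmono hab))
  rw [hsup] at h1 h2
  refine ⟨h1, fun i => ?_, fun U hU => ?_⟩
  · obtain ⟨n, rfl⟩ := hg i
    exact (hS _ _ (hg' n)).trans (h2 ⟨n⟩)
  · have := K.chain_strong' T hTmono U (fun n => hU _)
    rwa [hsup] at this

/-- The language with a single binary function symbol. -/
def binLang : FirstOrder.Language.{0, 0} := ⟨fun n => PLift (n = 2), fun _ => Empty⟩

/-- A binary operation as a structure in `binLang`. -/
@[instance_reducible]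
def binStr {ι : Type u} (ub : ι → ι → ι) : binLang.Structure ι where
  funMap {n} f xs := ub (xs ⟨0, by have := f.down; omega⟩) (xs ⟨1, by have := f.down; omega⟩)
  RelMap r _ := r.elim

theorem binLang_card : #(Σ i, binLang.Functions i) ≤ ℵ₀ := by
  have : ∀ i, Countable (binLang.Functions i) := fun i => by
    unfold binLang
    infer_instance
  exact Cardinal.mk_le_aleph0

theorem AEC.isDU_aux (c : Cardinal.{u}) : ∀ (ι : Type u) (S : ι → L.Substructure A), #ι = c →
    Nonempty ι → Directed (· ≤ ·) S → (∀ i j, S i ≤ S j → K.Le (S i) (S j)) → K.IsDU S := by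
  induction c using WellFoundedLT.induction with
  | _ c ih => ?_
  intro ι S hc hne hd hS
  by_cases hcount : c ≤ ℵ₀
  · have : Countable ι := Cardinal.mk_le_aleph0_iff.1 (hc ▸ hcount)
    exact K.isDU_of_countable S hd hS
  have hc0 : ℵ₀ < c := not_le.1 hcount
  choose ub hub1 hub2 using hd
  have hcard : #(c.ord.ToType) = #ι := by rw [Cardinal.mk_toType, Cardinal.card_ord, hc]
  obtain ⟨e⟩ := Cardinal.eq.1 hcard
  have hneW : Nonempty c.ord.ToType := ⟨e.symm hne.some⟩
  let _ := binStr ub
  let J : c.ord.ToType → binLang.Substructure ι := fun w =>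
    Substructure.closure binLang (e '' Iic w)
  have hJmono : Monotone J := fun a b hab =>
    (Substructure.closure binLang).monotone (Set.image_mono (Set.Iic_subset_Iic.2 hab))
  have hJmem : ∀ w, e w ∈ J w := fun w =>
    Substructure.subset_closure ⟨w, Set.mem_Iic.2 le_rfl, rfl⟩
  have hJub : ∀ w i j, i ∈ J w → j ∈ J w → ub i j ∈ J w := by
    intro w i j hi hj
    have := (J w).fun_mem (n := 2) ⟨rfl⟩ ![i, j] (by
      intro k
      fin_cases k
      · exact hi
      · exact hj)
    exact this
  have hJcard : ∀ w, #(J w) < c := by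
    intro w
    have h1 : #(Iio w) < c := by
      have h := Cardinal.mk_Iio_lt w (by rw [Cardinal.mk_toType, Cardinal.card_ord,
        Ordinal.type_toType])
      rwa [Cardinal.mk_toType, Cardinal.card_ord] at h
    have h2 : #(Iic w) < c := by
      rw [← Set.Iio_insert]
      exact lt_of_le_of_lt Cardinal.mk_insert_le
        (Cardinal.add_lt_of_lt hc0.le h1 (lt_of_lt_of_le Cardinal.one_lt_aleph0 hc0.le))
    have h3 := Substructure.lift_card_closure_le (L := binLang) (s := e '' Iic w)
    rw [Cardinal.lift_uzero, Cardinal.lift_uzero] at h3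
    have h4 : Cardinal.lift.{u, 0} #(Σ i, binLang.Functions i) ≤ ℵ₀ := by
      rw [Cardinal.lift_le_aleph0]
      exact binLang_card
    refine lt_of_le_of_lt h3 (max_lt hc0 ?_)
    refine Cardinal.add_lt_of_lt hc0.le ?_ (lt_of_le_of_lt h4 hc0)
    rw [Cardinal.mk_image_eq e.injective]
    exact h2
  have hIH : ∀ w, K.IsDU (fun i : J w => S i.1) := by
    intro w
    refine ih _ (hJcard w) _ _ rfl ⟨⟨e w, hJmem w⟩⟩ ?_ (fun i j h => hS _ _ h)
    intro i j
    exact ⟨⟨ub i.1 j.1, hJub w _ _ i.2 j.2⟩, hub1 _ _, hub2 _ _⟩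
  let U : c.ord.ToType → L.Substructure A := fun w => ⨆ i : J w, S i.1
  have hULe : ∀ w w', w ≤ w' → K.Le (U w) (U w') := by
    intro w w' hww
    exact (hIH w).2.2 (U w') (fun i => (hIH w').2.1 ⟨i.1, hJmono hww i.2⟩)
  have hUmono : Monotone U := fun w w' hww => (hULe w w' hww).1
  have hsup : (⨆ w, U w) = ⨆ i, S i := by
    apply le_antisymm
    · exact iSup_le fun w => iSup_le fun i => le_iSup S i.1
    · refine iSup_le fun i => ?_
      have hi : i ∈ J (e.symm i) := by
        have := hJmem (e.symm i)
        rwa [Equiv.apply_symm_apply] at this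
      exact (le_iSup (fun j : J (e.symm i) => S j.1) ⟨i, hi⟩).trans (le_iSup U (e.symm i))
  obtain ⟨h1, h2⟩ := K.chain_union' U hUmono hULe
  rw [hsup] at h1 h2
  refine ⟨h1, fun i => ?_, fun T hT => ?_⟩
  · have hi : i ∈ J (e.symm i) := by
      have := hJmem (e.symm i)
      rwa [Equiv.apply_symm_apply] at this
    exact ((hIH (e.symm i)).2.1 ⟨i, hi⟩).trans (h2 _)
  · have := K.chain_strong' U hUmono T (fun w => (hIH w).2.2 T (fun i => hT i.1))
    rwa [hsup] at this

/-- Directed unions in an abstract elementary class: the union of a directed family of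
substructures of an ambient structure, any two comparable members of which are `≤_K`-related,
lies in the class, is `≤_K`-above every member, and is `≤_K`-below every common
`≤_K`-upper bound. -/
theorem AEC.isDU {ι : Type u} [Nonempty ι] (S : ι → L.Substructure A)
    (hd : Directed (· ≤ ·) S) (hS : ∀ i j, S i ≤ S j → K.Le (S i) (S j)) : K.IsDU S :=
  K.isDU_aux _ ι S rfl inferInstance hd hS

end Vale.Agent.Lib.P307
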