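import Vale.Agent.Lib.P307.Basic

/-!
# Structures in a vocabulary of unary relation symbols: colours and colour counts
-/

namespace Vale.Agent.Lib.P307

open FirstOrder Language Cardinal Set

universe u

section Fibers

theorem exists_equiv_of_fibers {α β γ : Type u} (f : α → γ) (g : β → γ)
    (h : ∀ c, #{x // f x = c} = #{y // g y = c}) : ∃ e : α ≃ β, ∀ x, g (e x) = f x := by
  have h' : ∀ c, Nonempty ({x // f x = c} ≃ {y // g y = c}) := fun c => Cardinal.eq.1 (h c)
  let E := fun c => Classical.choice (h' c)
  refine ⟨(Equiv.sigmaFiberEquiv f).symm.trans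
    ((Equiv.sigmaCongrRight E).trans (Equiv.sigmaFiberEquiv g)), fun x => ?_⟩
  exact (E (f x) ⟨x, rfl⟩).2

theorem exists_embedding_of_fibers {α β γ : Type u} (f : α → γ) (g : β → γ)
    (h : ∀ c, #{x // f x = c} ≤ #{y // g y = c}) :
    ∃ e : α → β, Function.Injective e ∧ ∀ x, g (e x) = f x := by
  have h' : ∀ c, Nonempty ({x // f x = c} ↪ {y // g y = c}) :=
    fun c => (Cardinal.le_def _ _).1 (h c)
  let E := fun c => Classical.choice (h' c)
  refine ⟨fun x => (E (f x) ⟨x, rfl⟩).1, ?_, fun x => (E (f x) ⟨x, rfl⟩).2⟩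
  intro x x' hxx
  have aux : ∀ c (hc : f x = c), (E c ⟨x, hc⟩).1 = (E (f x) ⟨x, rfl⟩).1 := by
    intro c hc
    subst hc
    rfl
  have hff : f x = f x' := by
    have h1 := (E (f x) ⟨x, rfl⟩).2
    have h2 := (E (f x') ⟨x', rfl⟩).2
    simp only at hxx
    rw [← h1, ← h2, hxx]
  have h3 : (E (f x') ⟨x, hff⟩).1 = (E (f x') ⟨x', rfl⟩).1 := by
    rw [aux (f x') hff]
    exact hxx
  have h4 := (E (f x')).injective (Subtype.ext h3)
  exact congrArg Subtype.val h4

end Fibers

variable {L : FirstOrder.Language.{u, u}}

/-- The colour of an element: the set of unary relation symbols it satisfies. -/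
def col (L : FirstOrder.Language.{u, u}) {M : Type u} [L.Structure M] (x : M) :
    Set (L.Relations 1) :=
  {r | Structure.RelMap r ![x]}

/-- The number of elements of a given colour. -/
def cnt (L : FirstOrder.Language.{u, u}) (M : Type u) [L.Structure M]
    (c : Set (L.Relations 1)) : Cardinal.{u} :=
  #{x : M // col L x = c}

theorem col_hom {M N : Type u} [L.Structure M] [L.Structure N] (f : M ≃[L] N) (x : M) :
    col L (f x) = col L x := by
  ext r
  have h := f.map_rel r ![x]
  have h2 : (f ∘ ![x]) = ![f x] := by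
    ext i
    fin_cases i
    rfl
  rw [h2] at h
  exact h

theorem col_coe {M : Type u} [L.Structure M] (S : L.Substructure M) (x : S) :
    col L x = col L (x : M) := by
  ext r
  have h2 : (fun i => ((![x] i : S) : M)) = ![(x : M)] := by
    ext i
    fin_cases i
    rfl
  change Structure.RelMap r (fun i => ((![x] i : S) : M)) ↔ _
  rw [h2]
  rfl

theorem cnt_eq_of_equiv {M N : Type u} [L.Structure M] [L.Structure N] (f : M ≃[L] N) :
    cnt L M = cnt L N := by
  ext c
  refine Cardinal.eq.2 ⟨Equiv.subtypeEquiv f.toEquiv (fun x => ?_)⟩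
  change col L x = c ↔ col L (f x) = c
  rw [col_hom]

theorem cnt_substructure {M : Type u} [L.Structure M] (S : L.Substructure M)
    (c : Set (L.Relations 1)) : cnt L S c = #{x : M // x ∈ S ∧ col L x = c} := by
  refine Cardinal.eq.2 ⟨?_⟩
  refine (Equiv.subtypeEquivRight (fun x : S => ?_)).trans
    (Equiv.subtypeSubtypeEquivSubtypeInter (fun x : M => x ∈ S) (fun x : M => col L x = c))
  rw [col_coe]

variable (hF : ∀ n, IsEmpty (L.Functions n)) (hR : ∀ n, n ≠ 1 → IsEmpty (L.Relations n))
include hF hR

/-- In a unary relational vocabulary, a colour-preserving bijection is an isomorphism. -/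
def equivOfCol {M N : Type u} [L.Structure M] [L.Structure N] (e : M ≃ N)
    (he : ∀ x, col L (e x) = col L x) : M ≃[L] N :=
  { toEquiv := e
    map_fun' := fun {n} f => (hF n).elim f
    map_rel' := fun {n} r xs => by
      by_cases hn : n = 1
      · subst hn
        have h1 : xs = ![xs 0] := by
          ext i
          fin_cases i
          rfl
        have h2 : (e ∘ xs) = ![e (xs 0)] := by
          ext i
          fin_cases i
          rfl
        have h3 := Set.ext_iff.1 (he (xs 0)) r
        change Structure.RelMap r (e ∘ xs) ↔ Structure.RelMap r xs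
        rw [h2, h1]
        exact h3
      · exact (hR n hn).elim r }

theorem nonempty_equiv_of_cnt {M N : Type u} [L.Structure M] [L.Structure N]
    (h : cnt L M = cnt L N) : Nonempty (M ≃[L] N) := by
  obtain ⟨e, he⟩ := exists_equiv_of_fibers (fun x : M => col L x) (fun y : N => col L y)
    (fun c => congrFun h c)
  exact ⟨equivOfCol hF hR e he⟩

end Vale.Agent.Lib.P307
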