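import Vale.Agent.Lib.P307.Defs

namespace Vale.Agent.Lib.P307

open FirstOrder Cardinal Set

universe u

section LSNumber

variable {L : FirstOrder.Language.{u, u}}

theorem AEC.LSWitness.mono {K : AEC L} {a b : Cardinal.{u}} (h : K.LSWitness a) (hab : a ≤ b) :
    K.LSWitness b := by
  obtain ⟨h1, h2, h3⟩ := h
  refine ⟨h1.trans hab, h2.trans hab, fun N _ hN A => ?_⟩
  obtain ⟨S, hS, hAS, hc⟩ := h3 N hN A
  exact ⟨S, hS, hAS, hc.trans (by gcongr)⟩

theorem AEC.lsWitness_LS (K : AEC L) : K.LSWitness K.LS := by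
  have hne : {ℓ | K.LSWitness ℓ}.Nonempty := by
    obtain ⟨ℓ, h⟩ := K.exists_ls
    exact ⟨ℓ, h⟩
  exact csInf_mem hne

theorem AEC.lsWitness_of_LS_le (K : AEC L) {lam : Cardinal.{u}} (h : K.LS ≤ lam) :
    K.LSWitness lam :=
  K.lsWitness_LS.mono h

end LSNumber

section Empty

variable {L : FirstOrder.Language.{u, u}}

/-- In a language without function symbols every subset is a substructure. -/
def subOf (hF : ∀ n, IsEmpty (L.Functions n)) {M : Type u} [L.Structure M] (s : Set M) :
    L.Substructure M :=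
  ⟨s, fun {n} f => (hF n).elim f⟩

/-- In a language without symbols every bijection is an isomorphism. -/
def equivOf (hF : ∀ n, IsEmpty (L.Functions n)) (hR : ∀ n, IsEmpty (L.Relations n))
    {M N : Type u} [L.Structure M] [L.Structure N] (e : M ≃ N) : M ≃[L] N :=
  { toEquiv := e
    map_fun' := fun {n} f => (hF n).elim f
    map_rel' := fun {n} r => (hR n).elim r }

theorem exists_chain (X : Type u) (th : Cardinal.{u}) (h0 : ℵ₀ ≤ th) (hX : th < #X) :
    ∃ (ι : Type u) (_ : LinearOrder ι) (_ : WellFoundedLT ι) (_ : Nonempty ι) (s : ι → Set X),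
      Monotone s ∧ (∀ i, th ≤ #(s i) ∧ #(s i) < #X) ∧ ∀ x, ∃ i, x ∈ s i := by
  obtain ⟨Z, hZ⟩ := Cardinal.le_mk_iff_exists_set.1 hX.le
  have hcard : #((#X).ord.ToType) = #X := by rw [Cardinal.mk_toType, Cardinal.card_ord]
  obtain ⟨e⟩ := Cardinal.eq.1 hcard
  have hinf : ℵ₀ ≤ #X := h0.trans hX.le
  have hne : Nonempty (#X).ord.ToType := by
    have hX' : Nonempty X := by
      rw [← Cardinal.mk_ne_zero_iff]
      intro h
      rw [h] at hinf
      exact absurd hinf (not_le.2 Cardinal.aleph0_pos)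
    exact ⟨e.symm hX'.some⟩
  refine ⟨(#X).ord.ToType, inferInstance, inferInstance, hne, fun i => Z ∪ e '' Iic i,
    ?_, ?_, ?_⟩
  · intro i j hij
    exact Set.union_subset_union_right _ (Set.image_mono (Set.Iic_subset_Iic.2 hij))
  · intro i
    constructor
    · rw [← hZ]
      exact Cardinal.mk_le_mk_of_subset Set.subset_union_left
    · have h1 : #(Iio i) < #X := by
        have h := Cardinal.mk_Iio_lt i (by rw [hcard, Ordinal.type_toType])
        rwa [hcard] at h
      have h2 : #(Iic i) < #X := by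
        rw [← Set.Iio_insert]
        exact lt_of_le_of_lt Cardinal.mk_insert_le
          (Cardinal.add_lt_of_lt hinf h1 (lt_of_lt_of_le Cardinal.one_lt_aleph0 hinf))
      calc #(Z ∪ e '' Iic i : Set X) ≤ #Z + #(e '' Iic i) := Cardinal.mk_union_le _ _
        _ = th + #(Iic i) := by rw [hZ, Cardinal.mk_image_eq e.injective]
        _ < #X := Cardinal.add_lt_of_lt hinf hX h2
  · intro x
    exact ⟨e.symm x, Or.inr ⟨e.symm x, Set.mem_Iic.2 le_rfl, by simp⟩⟩

variable (K : AEC L) (hF : ∀ n, IsEmpty (L.Functions n)) (hR : ∀ n, IsEmpty (L.Relations n))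
include hF hR

theorem mem_of_card {M N : Type u} [L.Structure M] [L.Structure N]
    (hM : K.Mem M) (h : #M = #N) : K.Mem N := by
  obtain ⟨e⟩ := Cardinal.eq.1 h
  exact K.mem_of_equiv (equivOf hF hR e) hM

theorem strong_of_card {M N : Type u} [L.Structure M] [L.Structure N]
    (S : L.Substructure M) (S' : L.Substructure N) (hS : K.Strong S)
    (h1 : #S = #S') (h2 : #((S : Set M)ᶜ : Set M) = #((S' : Set N)ᶜ : Set N)) :
    K.Strong S' := by
  classical
  obtain ⟨e1⟩ := Cardinal.eq.1 h1
  obtain ⟨e2⟩ := Cardinal.eq.1 h2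
  let e : M ≃ N := (Equiv.Set.sumCompl (S : Set M)).symm.trans
    ((Equiv.sumCongr e1 e2).trans (Equiv.Set.sumCompl (S' : Set N)))
  let f : M ≃[L] N := equivOf hF hR e
  have hfe : ∀ y, f.toHom y = e y := fun _ => rfl
  have hmem : ∀ y, y ∈ S → e y ∈ S' := by
    intro y hy
    have h3 : (Equiv.Set.sumCompl (S : Set M)).symm y = Sum.inl ⟨y, hy⟩ :=
      Equiv.Set.sumCompl_symm_apply_of_mem hy
    simp only [e, Equiv.trans_apply, h3, Equiv.sumCongr_apply, Sum.map_inl]
    exact (e1 ⟨y, hy⟩).2
  have hnmem : ∀ y, y ∉ S → e y ∉ S' := by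
    intro y hy
    have h3 : (Equiv.Set.sumCompl (S : Set M)).symm y = Sum.inr ⟨y, hy⟩ :=
      Equiv.Set.sumCompl_symm_apply_of_notMem hy
    simp only [e, Equiv.trans_apply, h3, Equiv.sumCongr_apply, Sum.map_inr]
    exact (e2 ⟨y, hy⟩).2
  have hmap : S.map f.toHom = S' := by
    ext x
    rw [Language.Substructure.mem_map]
    constructor
    · rintro ⟨y, hy, rfl⟩
      rw [hfe]
      exact hmem y hy
    · intro hx
      refine ⟨e.symm x, ?_, ?_⟩
      · by_contra hn
        have h3 := hnmem _ hn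
        rw [Equiv.apply_symm_apply] at h3
        exact h3 hx
      · rw [hfe]
        exact Equiv.apply_symm_apply e x
  rw [← hmap]
  exact K.strong_of_equiv f S hS

omit hF hR in
theorem exists_strong_card {lam : Cardinal.{u}} (hls : K.LSWitness lam) {N : Type u}
    [L.Structure N] (hN : K.Mem N) {a : Cardinal.{u}} (ha : lam ≤ a)
    (haN : a ≤ #N) : ∃ S : L.Substructure N, K.Strong S ∧ #S = a := by
  obtain ⟨A, hA⟩ := Cardinal.le_mk_iff_exists_set.1 haN
  obtain ⟨S, hS, hAS, hc⟩ := hls.2.2 N hN A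
  refine ⟨S, hS, le_antisymm ?_ ?_⟩
  · rw [hA, Cardinal.add_eq_left (hls.1.trans ha) ha] at hc
    exact hc
  · rw [← hA]
    exact Cardinal.mk_le_mk_of_subset hAS

theorem strong_of_lt {lam : Cardinal.{u}} (hls : K.LSWitness lam) {N : Type u}
    [L.Structure N] (hN : K.Mem N) (S : L.Substructure N)
    (h1 : lam ≤ #S) (h2 : #S < #N) : K.Strong S := by
  obtain ⟨S0, hS0, hc⟩ := exists_strong_card K hls hN h1 h2.le
  have hinf : Infinite N := Cardinal.infinite_iff.2 (hls.1.trans (h1.trans h2.le))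
  refine strong_of_card K hF hR S0 S hS0 hc ?_
  have h3 : #((S0 : Set N)ᶜ : Set N) = #N := Cardinal.mk_compl_of_infinite _ (hc.trans_lt h2)
  have h4 : #((S : Set N)ᶜ : Set N) = #N := Cardinal.mk_compl_of_infinite _ h2
  rw [h3, h4]

theorem strong_of_eq {lam : Cardinal.{u}} (hls : K.LSWitness lam) {N : Type u}
    [L.Structure N] (hN : K.Mem N) (hlam : lam < #N)
    (S : L.Substructure N) (hS : #S = #N) : K.Strong S := by
  obtain ⟨ι, hlin, hwf, hne, s, hmono, hcard, hcov⟩ := exists_chain S lam hls.1 (hS ▸ hlam)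
  let T : ι → L.Substructure N := fun i => subOf hF (Subtype.val '' s i)
  have hTmono : Monotone T := fun i j hij => Set.image_mono (hmono hij)
  have hTstrong : ∀ i, K.Strong (T i) := by
    intro i
    have hc : #(T i) = #(s i) := Cardinal.mk_image_eq Subtype.val_injective
    refine strong_of_lt K hF hR hls hN (T i) ?_ ?_
    · rw [hc]
      exact (hcard i).1
    · rw [hc, ← hS]
      exact (hcard i).2
  have hsup : (⨆ i, T i) = S := by
    apply le_antisymm
    · refine iSup_le (fun i => ?_)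
      rintro x ⟨y, -, rfl⟩
      exact y.2
    · intro x hx
      obtain ⟨i, hi⟩ := hcov ⟨x, hx⟩
      exact (le_iSup T i) ⟨⟨x, hx⟩, hi, rfl⟩
  rw [← hsup]
  exact K.chain_strong T hTmono hTstrong

theorem strong_of_le {lam : Cardinal.{u}} (hls : K.LSWitness lam) {N : Type u}
    [L.Structure N] (hN : K.Mem N) (hlam : lam < #N)
    (S : L.Substructure N) (h1 : lam ≤ #S) : K.Strong S := by
  have hle : #S ≤ #N := Cardinal.mk_le_of_injective Subtype.val_injective
  rcases hle.lt_or_eq with h | h
  · exact strong_of_lt K hF hR hls hN S h1 h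
  · exact strong_of_eq K hF hR hls hN hlam S h

theorem mem_of_card_ge {lam : Cardinal.{u}} (hls : K.LSWitness lam) {N0 : Type u}
    [L.Structure N0] (hN0 : K.Mem N0) (hlam : lam < #N0) :
    ∀ c : Cardinal.{u}, lam ≤ c → ∀ (M : Type u) [L.Structure M], #M = c →
      K.Mem M := by
  intro c
  refine WellFoundedLT.induction
    (motive := fun c => lam ≤ c → ∀ (M : Type u) [L.Structure M], #M = c → K.Mem M) c ?_
  intro c ih hc M _ hM
  by_cases hcm : c ≤ #N0
  · obtain ⟨S, hS, hSc⟩ := exists_strong_card K hls hN0 hc hcm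
    exact mem_of_card K hF hR (K.mem_of_strong S hS).1 (hSc.trans hM.symm)
  · have hsucc : Order.succ lam < #M := by
      rw [hM]
      exact lt_of_le_of_lt (Order.succ_le_of_lt hlam) (not_le.1 hcm)
    obtain ⟨ι, hlin, hwf, hne, s, hmono, hcard, hcov⟩ :=
      exists_chain M (Order.succ lam) (hls.1.trans (Order.le_succ lam)) hsucc
    let T : ι → L.Substructure M := fun i => subOf hF (s i)
    have hTmono : Monotone T := fun i j hij => hmono hij
    have hTmem : ∀ j, K.Mem (T j) := fun j =>
      ih #(T j) (by rw [← hM]; exact (hcard j).2) ((Order.le_succ lam).trans (hcard j).1)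
        (T j) rfl
    have hTlt : ∀ j, lam < #(T j) := fun j => lt_of_lt_of_le (Order.lt_succ lam) (hcard j).1
    have hpair : ∀ i j, i ≤ j → K.Strong ((T i).comap (T j).subtype.toHom) := by
      intro i j hij
      refine strong_of_le K hF hR hls (hTmem j) (hTlt j) _ ?_
      have hinj : Function.Injective
          (fun x : T i => (⟨⟨x.1, hTmono hij x.2⟩, x.2⟩ : (T i).comap (T j).subtype.toHom)) := by
        intro x y hxy
        exact Subtype.ext (congrArg (fun z => z.1.1) hxy)
      exact ((Order.le_succ lam).trans (hcard i).1).trans (Cardinal.mk_le_of_injective hinj)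
    have hU := (K.chain_union T hTmono hpair).1
    have htop : (⨆ i, T i) = ⊤ := by
      rw [eq_top_iff]
      intro x _
      obtain ⟨i, hi⟩ := hcov x
      exact (le_iSup T i) hi
    rw [htop] at hU
    exact K.mem_of_equiv Language.Substructure.topEquiv hU

/-- Eventual categoricity for abstract elementary classes in the empty vocabulary. -/
theorem empty_categoricity (lam kap : Cardinal.{u}) (hK : K.LS ≤ lam) (hkap : lam < kap)
    (hcat : K.Categorical kap) (kap' : Cardinal.{u}) (h' : lam ≤ kap') : K.Categorical kap' := by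
  have hls := K.lsWitness_of_LS_le hK
  obtain ⟨⟨N0, inst, hN0, hc0⟩, -⟩ := hcat
  constructor
  · let instOut : L.Structure kap'.out :=
      ⟨fun {n} f => (hF n).elim f, fun {n} r => (hR n).elim r⟩
    refine ⟨kap'.out, instOut, ?_, Cardinal.mk_out kap'⟩
    exact mem_of_card_ge K hF hR hls hN0 (hc0 ▸ hkap) kap' h' kap'.out (Cardinal.mk_out kap')
  · intro M N _ _ _ _ hM hN
    obtain ⟨e⟩ := Cardinal.eq.1 (hM.trans hN.symm)
    exact ⟨equivOf hF hR e⟩

end Empty

end Vale.Agent.Lib.P307
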