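import Vale.Agent.Lib.P307.Unary

/-!
# An abstract elementary class in a unary relational vocabulary that is categorical exactly
above `2 ^ λ`

The class of all structures whose elements have pairwise distinct colours, together with all
structures whose elements all have the empty colour, ordered by the substructure relation.
-/

namespace Vale.Agent.Lib.P307

open FirstOrder Language Cardinal Set

universe u

section Example

variable {L : FirstOrder.Language.{u, u}}

/-- All elements of `M` have pairwise distinct colours. -/
def InjCol (L : FirstOrder.Language.{u, u}) (M : Type u) [L.Structure M] : Prop :=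
  ∀ x y : M, col L x = col L y → x = y

/-- All elements of `M` have the empty colour. -/
def AllEmpty (L : FirstOrder.Language.{u, u}) (M : Type u) [L.Structure M] : Prop :=
  ∀ x : M, col L x = ∅

/-- Membership in the example class. -/
def exMem (L : FirstOrder.Language.{u, u}) (M : Type u) [L.Structure M] : Prop :=
  InjCol L M ∨ AllEmpty L M

theorem injCol_of_equiv {M N : Type u} [L.Structure M] [L.Structure N] (f : M ≃[L] N)
    (h : InjCol L M) : InjCol L N := by
  intro y1 y2 hy
  have h1 : col L (f.symm y1) = col L (f.symm y2) := by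
    rw [col_hom, col_hom]
    exact hy
  have h2 := h _ _ h1
  simpa using congrArg f h2

theorem allEmpty_of_equiv {M N : Type u} [L.Structure M] [L.Structure N] (f : M ≃[L] N)
    (h : AllEmpty L M) : AllEmpty L N := by
  intro y
  rw [← col_hom f.symm y]
  exact h _

theorem injCol_sub {N : Type u} [L.Structure N] (S : L.Substructure N) (h : InjCol L N) :
    InjCol L S := by
  intro x y hxy
  rw [col_coe, col_coe] at hxy
  exact Subtype.ext (h _ _ hxy)

theorem allEmpty_sub {N : Type u} [L.Structure N] (S : L.Substructure N)
    (h : AllEmpty L N) : AllEmpty L S := fun x => by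
  rw [col_coe]
  exact h _

theorem exMem_of_equiv {M N : Type u} [L.Structure M] [L.Structure N] (f : M ≃[L] N)
    (h : exMem L M) : exMem L N :=
  h.imp (injCol_of_equiv f) (allEmpty_of_equiv f)

theorem exMem_sub {N : Type u} [L.Structure N] (S : L.Substructure N) (h : exMem L N) :
    exMem L S :=
  h.imp (injCol_sub S) (allEmpty_sub S)

theorem exMem_iSup {A : Type u} [L.Structure A] {ι : Type u} [LinearOrder ι] [Nonempty ι]
    (S : ι → L.Substructure A) (hmono : Monotone S) (h : ∀ i, exMem L (S i)) :
    exMem L (⨆ i, S i : L.Substructure A) := by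
  have hd := hmono.directed_le
  by_cases hall : ∀ j, AllEmpty L (S j)
  · right
    intro x
    obtain ⟨j, hj⟩ := (Substructure.mem_iSup_of_directed hd).1 x.2
    have h1 := hall j ⟨x.1, hj⟩
    rw [col_coe] at h1 ⊢
    exact h1
  · left
    rw [not_forall] at hall
    obtain ⟨j0, hj0⟩ := hall
    have hinj : ∀ j, j0 ≤ j → InjCol L (S j) := by
      intro j hj
      rcases h j with h1 | h1
      · exact h1
      · exfalso
        apply hj0
        intro x
        have h2 := h1 ⟨x.1, hmono hj x.2⟩
        rw [col_coe] at h2 ⊢
        exact h2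
    intro x y hxy
    obtain ⟨i, hi⟩ := (Substructure.mem_iSup_of_directed hd).1 x.2
    obtain ⟨i', hi'⟩ := (Substructure.mem_iSup_of_directed hd).1 y.2
    have hx : x.1 ∈ S (max (max i i') j0) :=
      hmono (le_trans (le_max_left i i') (le_max_left _ _)) hi
    have hy : y.1 ∈ S (max (max i i') j0) :=
      hmono (le_trans (le_max_right i i') (le_max_left _ _)) hi'
    rw [col_coe, col_coe] at hxy
    have hcol : col L (⟨x.1, hx⟩ : S (max (max i i') j0)) = col L (⟨y.1, hy⟩ : S _) := by
      rw [col_coe, col_coe]
      exact hxy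
    have h3 := hinj _ (le_max_right _ _) _ _ hcol
    exact Subtype.ext (congrArg (fun z : S (max (max i i') j0) => (z : A)) h3)

/-- The example class: structures with pairwise distinct colours or with only the empty
colour, with the substructure relation as `≤_K`. -/
def exAEC (hF : ∀ n, IsEmpty (L.Functions n)) : AEC L where
  Mem := fun M _ => exMem L M
  Strong := fun {N} _ _ => exMem L N
  mem_of_equiv := fun f h => exMem_of_equiv f h
  strong_of_equiv := fun f _ h => exMem_of_equiv f h
  mem_of_strong := fun S h => ⟨exMem_sub S h, h⟩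
  strong_top := fun h => h
  strong_trans := fun _ _ h _ => h
  coherence := fun _ T _ _ h => exMem_sub T h
  chain_union := fun S hmono h => by
    have hm := exMem_iSup S hmono (fun i => h i i le_rfl)
    exact ⟨hm, fun _ => hm⟩
  chain_strong := fun _ _ h => h (Classical.arbitrary _)
  exists_ls := ⟨max ℵ₀ L.card, le_max_left _ _, le_max_right _ _, fun _ _ hN A =>
    ⟨subOf hF A, hN, fun _ hx => hx, self_le_add_right _ _⟩⟩

theorem exAEC_lsWitness (hF : ∀ n, IsEmpty (L.Functions n)) {lam : Cardinal.{u}}
    (h0 : ℵ₀ ≤ lam) (hl : L.card ≤ lam) : (exAEC hF).LSWitness lam :=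
  ⟨h0, hl, fun _ _ hN A => ⟨subOf hF A, hN, fun _ hx => hx, self_le_add_right _ _⟩⟩

theorem exAEC_LS (hF : ∀ n, IsEmpty (L.Functions n)) : (exAEC hF).LS = max ℵ₀ L.card := by
  apply le_antisymm
  · exact csInf_le' (exAEC_lsWitness hF (le_max_left _ _) (le_max_right _ _))
  · exact le_csInf ⟨_, exAEC_lsWitness hF (le_max_left _ _) (le_max_right _ _)⟩
      (fun ℓ hℓ => max_le hℓ.1 hℓ.2.1)

/-- The structure on a type in which no relation holds. -/
@[instance_reducible]
def emptyStr (hF : ∀ n, IsEmpty (L.Functions n)) (X : Type u) : L.Structure X where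
  funMap {n} f := (hF n).elim f
  RelMap _ _ := False

theorem col_emptyStr (hF : ∀ n, IsEmpty (L.Functions n)) (X : Type u) (x : X) :
    letI := emptyStr hF X; col L x = ∅ := by
  let _ := emptyStr hF X
  ext r
  constructor
  · intro h
    exact False.elim h
  · intro h
    exact False.elim h

/-- The structure on the set of colours in which the element `c` has colour `c`. -/
@[instance_reducible]
def colStr (hF : ∀ n, IsEmpty (L.Functions n)) : L.Structure (Set (L.Relations 1)) where
  funMap {n} f := (hF n).elim f
  RelMap {n} r xs := ∃ h : n = 1, (h ▸ r : L.Relations 1) ∈ xs ⟨0, by omega⟩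

theorem col_colStr (hF : ∀ n, IsEmpty (L.Functions n)) (c : Set (L.Relations 1)) :
    letI := colStr hF; col L c = c := by
  let _ := colStr hF
  ext r
  constructor
  · rintro ⟨h, hr⟩
    exact hr
  · intro hr
    exact ⟨rfl, hr⟩

theorem exAEC_categorical (hF : ∀ n, IsEmpty (L.Functions n))
    (hR : ∀ n, n ≠ 1 → IsEmpty (L.Relations n)) {lam kap : Cardinal.{u}}
    (hl : L.card ≤ lam) (hk : 2 ^ lam < kap) : (exAEC hF).Categorical kap := by
  refine ⟨⟨kap.out, emptyStr hF kap.out, Or.inr (fun x => col_emptyStr hF _ x),
    Cardinal.mk_out kap⟩, ?_⟩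
  intro M N _ _ hM hN hMc hNc
  have key : ∀ (P : Type u) [L.Structure P], exMem L P → #P = kap → AllEmpty L P := by
    intro P _ hP hPc
    rcases hP with h | h
    · exfalso
      have h1 : #P ≤ #(Set (L.Relations 1)) :=
        Cardinal.mk_le_of_injective (f := fun x : P => col L x) (fun a b hab => h a b hab)
      exact absurd (hPc ▸ hk) (not_lt.2 (h1.trans (card_col_le hl)))
    · exact h
  have hMe := key M hM hMc
  have hNe := key N hN hNc
  obtain ⟨e⟩ := Cardinal.eq.1 (hMc.trans hNc.symm)
  exact ⟨equivOfCol hF hR e (fun x => by rw [hMe, hNe])⟩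

theorem exAEC_not_categorical (hF : ∀ n, IsEmpty (L.Functions n)) {lam : Cardinal.{u}}
    (hcard : #(L.Relations 1) = lam) (hne : lam ≠ 0) :
    ¬ (exAEC hF).Categorical (2 ^ lam) := by
  rintro ⟨-, h⟩
  let i1 := colStr hF
  let i2 := emptyStr hF ((2 : Cardinal.{u}) ^ lam).out
  have hM1 : exMem L (Set (L.Relations 1)) := Or.inl (fun a b hab => by
    rw [col_colStr hF a, col_colStr hF b] at hab
    exact hab)
  have hM2 : exMem L ((2 : Cardinal.{u}) ^ lam).out := Or.inr (fun x => col_emptyStr hF _ x)
  obtain ⟨e⟩ := h (Set (L.Relations 1)) ((2 : Cardinal.{u}) ^ lam).out hM1 hM2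
    (by rw [Cardinal.mk_set, hcard]) (Cardinal.mk_out _)
  have h1 := col_hom e (Set.univ : Set (L.Relations 1))
  rw [col_emptyStr hF, col_colStr hF] at h1
  have hne' : Nonempty (L.Relations 1) := by
    rw [← Cardinal.mk_ne_zero_iff, hcard]
    exact hne
  exact Set.empty_ne_univ h1

end Example

/-- The relation symbols of the unary language on `R`: the elements of `R`, in arity one. -/
def UnaryRel (R : Type u) : ℕ → Type u
  | 1 => R
  | _ => PEmpty

/-- The language with no function symbols and the elements of `R` as unary relation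
symbols. -/
def unaryLang (R : Type u) : FirstOrder.Language.{u, u} := ⟨fun _ => PEmpty, UnaryRel R⟩

theorem unaryLang_functions (R : Type u) (n : ℕ) : IsEmpty ((unaryLang R).Functions n) :=
  (inferInstance : IsEmpty PEmpty)

theorem unaryLang_relations (R : Type u) (n : ℕ) (hn : n ≠ 1) :
    IsEmpty ((unaryLang R).Relations n) := by
  match n, hn with
  | 0, _ => exact (inferInstance : IsEmpty PEmpty)
  | 1, h => exact absurd rfl h
  | (n + 2), _ => exact (inferInstance : IsEmpty PEmpty)

theorem unaryLang_card (R : Type u) : (unaryLang R).card = #R := by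
  have e : (unaryLang R).Symbols ≃ R :=
    { toFun := Sum.elim (fun x => x.2.elim) (fun x =>
        match x with
        | ⟨0, r⟩ => r.elim
        | ⟨1, r⟩ => r
        | ⟨n + 2, r⟩ => r.elim)
      invFun := fun r => Sum.inr ⟨1, r⟩
      left_inv := by
        rintro (⟨n, f⟩ | ⟨n, r⟩)
        · exact f.elim
        · match n, r with
          | 0, r => exact r.elim
          | 1, r => rfl
          | (n + 2), r => exact r.elim
      right_inv := fun r => rfl }
  exact Cardinal.eq.2 ⟨e⟩

/-- For every infinite `λ` there is an abstract elementary class `K` in a unary relational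
vocabulary with `LS(K) = λ` that is categorical in every cardinal above `2 ^ λ` but not in
`2 ^ λ`. -/
theorem exists_unary_example (lam : Cardinal.{u}) (h0 : ℵ₀ ≤ lam) :
    ∃ (L : FirstOrder.Language.{u, u}) (_ : ∀ n, IsEmpty (L.Functions n))
      (_ : ∀ n, n ≠ 1 → IsEmpty (L.Relations n)) (K : AEC L),
      K.LS = lam ∧ (∀ kap, 2 ^ lam < kap → K.Categorical kap) ∧
        ¬ K.Categorical (2 ^ lam) := by
  have hF : ∀ n, IsEmpty ((unaryLang lam.out).Functions n) := unaryLang_functions _
  have hR := unaryLang_relations lam.out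
  have hcard : (unaryLang lam.out).card = lam := by rw [unaryLang_card, Cardinal.mk_out]
  refine ⟨unaryLang lam.out, hF, hR, exAEC hF, ?_, ?_, ?_⟩
  · rw [exAEC_LS, hcard, max_eq_right h0]
  · intro kap hk
    exact exAEC_categorical hF hR hcard.le hk
  · exact exAEC_not_categorical hF (Cardinal.mk_out lam)
      (ne_of_gt (Cardinal.aleph0_pos.trans_le h0))

end Vale.Agent.Lib.P307
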