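import Vale.Agent.Lib.P307.Shrink

/-!
# Changing the size of big colour classes

In a unary relational vocabulary, if `M` lies in `K` then so does every structure with the
same colour classes of size `≤ lam` and with arbitrary classes of size `> lam` in the
colours where `M` has such a class.
-/

namespace Vale.Agent.Lib.P307

open FirstOrder Language Cardinal Set

universe u

/-- `P` has the same colour classes of size `≤ lam` as `M`, and a class of size `> lam`
in every colour in which `M` has one. -/
def GoodRel (L : FirstOrder.Language.{u, u}) (lam : Cardinal.{u}) (M P : Type u)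
    [L.Structure M] [L.Structure P] : Prop :=
  ∀ c, (cnt L M c ≤ lam → cnt L P c = cnt L M c) ∧ (lam < cnt L M c → lam < cnt L P c)

variable {L : FirstOrder.Language.{u, u}}
variable (K : AEC L) (hF : ∀ n, IsEmpty (L.Functions n))
  (hR : ∀ n, n ≠ 1 → IsEmpty (L.Relations n))
include hF hR

theorem mem_of_cnt_le {lam : Cardinal.{u}} (hls : K.LSWitness lam) {M P : Type u}
    [L.Structure M] [L.Structure P] (hM : K.Mem M) (hP : GoodRel L lam M P)
    (hle : ∀ c, cnt L P c ≤ cnt L M c) : K.Mem P := by
  classical
  have hY : ∀ c, ∃ Y : Set M, Y ⊆ {x | col L x = c} ∧ #Y = cnt L P c := fun c =>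
    Cardinal.le_mk_iff_exists_subset.1 (hle c)
  choose Y hYsub hYcard using hY
  let X : Set M := {x | cnt L M (col L x) ≤ lam ∨ x ∈ Y (col L x)}
  have hX : ∀ x, x ∉ X → lam < #{y : M // y ∈ X ∧ col L y = col L x} := by
    intro x hx
    have hbig : lam < cnt L M (col L x) := by
      by_contra h
      exact hx (Or.inl (not_lt.1 h))
    have h1 : lam < #(Y (col L x)) := by
      rw [hYcard]
      exact (hP _).2 hbig
    refine lt_of_lt_of_le h1 ?_
    have hcol : ∀ y : Y (col L x), col L y.1 = col L x := fun y => hYsub _ y.2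
    refine Cardinal.mk_le_of_injective
      (f := fun y => ⟨y.1, Or.inr (by rw [hcol y]; exact y.2), hcol y⟩) ?_
    intro a b hab
    have hab' : a.1 = b.1 :=
      congrArg (fun z : {y : M // y ∈ X ∧ col L y = col L x} => (z : M)) hab
    exact Subtype.ext hab'
  have hstr := strong_of_keep K hF hR hls hM X hX
  have hmem : K.Mem (subOf hF X) := (K.mem_of_strong _ hstr).1
  have hcnt : cnt L (subOf hF X) = cnt L P := by
    ext c
    rw [cnt_substructure]
    by_cases hc : cnt L M c ≤ lam
    · rw [(hP c).1 hc]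
      refine Cardinal.eq.2 ⟨Equiv.subtypeEquivRight (fun x => ?_)⟩
      constructor
      · exact fun h => h.2
      · intro h
        exact ⟨Or.inl (by rw [h]; exact hc), h⟩
    · rw [← hYcard c]
      refine Cardinal.eq.2 ⟨Equiv.subtypeEquivRight (fun x => ?_)⟩
      constructor
      · rintro ⟨h1, h2⟩
        rcases h1 with h1 | h1
        · rw [h2] at h1
          exact absurd h1 hc
        · rw [h2] at h1
          exact h1
      · intro h
        have h2 : col L x = c := hYsub c h
        exact ⟨Or.inr (by rw [h2]; exact h), h2⟩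
  obtain ⟨e⟩ := nonempty_equiv_of_cnt hF hR hcnt
  exact K.mem_of_equiv e hmem

theorem mem_of_goodRel_aux {lam : Cardinal.{u}} (hls : K.LSWitness lam) {M : Type u}
    [L.Structure M] (hM : K.Mem M) (θ : Cardinal.{u}) :
    ∀ (P : Type u) [L.Structure P], GoodRel L lam M P →
      (∀ c, cnt L P c ≤ max (cnt L M c) θ) → K.Mem P := by
  classical
  induction θ using WellFoundedLT.induction with
  | _ θ ih => ?_
  intro P _ hP hle
  by_cases hθ : θ ≤ lam
  · refine mem_of_cnt_le K hF hR hls hM hP (fun c => ?_)
    by_cases hc : cnt L M c ≤ lam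
    · exact ((hP c).1 hc).le
    · have := hle c
      rwa [max_eq_left ((hθ.trans (not_le.1 hc).le))] at this
  have hθ' : lam < θ := not_le.1 hθ
  have hθinf : ℵ₀ ≤ θ := hls.1.trans hθ'.le
  have hcardW : #(θ.ord.ToType) = θ := by rw [Cardinal.mk_toType, Cardinal.card_ord]
  have hneW : Nonempty θ.ord.ToType := by
    rw [← Cardinal.mk_ne_zero_iff, hcardW]
    exact (Cardinal.aleph0_pos.trans_le hθinf).ne'
  have hIic : ∀ w : θ.ord.ToType, #(Iic w) < θ := by
    intro w
    have h1 : #(Iio w) < θ := by
      have h := Cardinal.mk_Iio_lt w (by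
        rw [Cardinal.mk_toType, Cardinal.card_ord, Ordinal.type_toType])
      rwa [Cardinal.mk_toType, Cardinal.card_ord] at h
    rw [← Set.Iio_insert]
    exact lt_of_le_of_lt Cardinal.mk_insert_le
      (Cardinal.add_lt_of_lt hθinf h1 (lt_of_lt_of_le Cardinal.one_lt_aleph0 hθinf))
  let G : Set (Set (L.Relations 1)) := {c | cnt L M c < cnt L P c}
  have hGbig : ∀ c ∈ G, lam < cnt L M c := by
    intro c hc
    by_contra h
    have h2 := (hP c).1 (not_lt.1 h)
    have h3 : cnt L M c < cnt L P c := hc
    rw [h2] at h3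
    exact lt_irrefl _ h3
  have hGle : ∀ c ∈ G, cnt L P c ≤ θ := by
    intro c hc
    rcases le_max_iff.1 (hle c) with h | h
    · exact absurd hc (not_lt.2 h)
    · exact h
  have hB : ∀ c, ∃ B : Set P, B ⊆ {x | col L x = c} ∧ #B = min (cnt L M c) (cnt L P c) :=
    fun c => Cardinal.le_mk_iff_exists_subset.1 (min_le_right _ _)
  choose B hBsub hBcard using hB
  have hBG : ∀ c ∈ G, #(B c) = cnt L M c := fun c hc => by
    rw [hBcard, min_eq_left (le_of_lt hc)]
  have hE : ∃ E : {x : P // col L x ∈ G} → Set (L.Relations 1) × θ.ord.ToType,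
      Function.Injective E ∧ ∀ x, (E x).1 = col L x.1 := by
    refine exists_embedding_of_fibers (fun x : {x : P // col L x ∈ G} => col L x.1)
      (fun y : Set (L.Relations 1) × θ.ord.ToType => y.1) (fun c => ?_)
    by_cases hc : c ∈ G
    · calc #{x : {x : P // col L x ∈ G} // col L x.1 = c} ≤ cnt L P c := by
            refine Cardinal.mk_le_of_injective
              (f := fun x => (⟨x.1.1, x.2⟩ : {x : P // col L x = c})) ?_
            intro a b hab
            have hab' : a.1.1 = b.1.1 :=
              congrArg (fun z : {x : P // col L x = c} => (z : P)) hab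
            exact Subtype.ext (Subtype.ext hab')
        _ ≤ θ := hGle c hc
        _ = #(θ.ord.ToType) := hcardW.symm
        _ ≤ #{y : Set (L.Relations 1) × θ.ord.ToType // y.1 = c} := by
            refine Cardinal.mk_le_of_injective (f := fun w => ⟨(c, w), rfl⟩) ?_
            intro a b hab
            have hab' : (c, a) = (c, b) := congrArg
              (fun z : {y : Set (L.Relations 1) × θ.ord.ToType // y.1 = c} => z.1) hab
            exact (Prod.mk.inj hab').2
    · have hemp : IsEmpty {x : {x : P // col L x ∈ G} // col L x.1 = c} :=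
        ⟨fun x => hc (x.2 ▸ x.1.2)⟩
      rw [Cardinal.mk_eq_zero_iff.2 hemp]
      exact zero_le
  obtain ⟨E, hEinj, hEcol⟩ := hE
  let X : θ.ord.ToType → Set P := fun w =>
    {x | col L x ∉ G ∨ x ∈ B (col L x) ∨ ∃ h : col L x ∈ G, (E ⟨x, h⟩).2 ≤ w}
  have hXmono : ∀ w w', w ≤ w' → X w ⊆ X w' := by
    intro w w' hww x hx
    rcases hx with h | h | ⟨h, h'⟩
    · exact Or.inl h
    · exact Or.inr (Or.inl h)
    · exact Or.inr (Or.inr ⟨h, h'.trans hww⟩)
  let T : θ.ord.ToType → L.Substructure P := fun w => subOf hF (X w)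
  have hcntN : ∀ w c, c ∉ G → cnt L (T w) c = cnt L P c := by
    intro w c hc
    rw [cnt_substructure]
    refine Cardinal.eq.2 ⟨Equiv.subtypeEquivRight (fun x => ?_)⟩
    constructor
    · exact fun h => h.2
    · intro h
      exact ⟨Or.inl (by rw [h]; exact hc), h⟩
  have hcntL : ∀ w c, c ∈ G → cnt L M c ≤ cnt L (T w) c := by
    intro w c hc
    rw [cnt_substructure, ← hBG c hc]
    have hcol : ∀ b : B c, col L b.1 = c := fun b => hBsub c b.2
    refine Cardinal.mk_le_of_injective
      (f := fun b => ⟨b.1, Or.inr (Or.inl (by rw [hcol b]; exact b.2)), hcol b⟩) ?_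
    intro a b hab
    have hab' : a.1 = b.1 :=
      congrArg (fun z : {x : P // x ∈ T w ∧ col L x = c} => (z : P)) hab
    exact Subtype.ext hab'
  have hcntU : ∀ w c, c ∈ G → cnt L (T w) c ≤ max (cnt L M c) #(Iic w) := by
    intro w c hc
    rw [cnt_substructure]
    have key : ∀ x : {x : P // x ∈ T w ∧ col L x = c}, x.1 ∉ B c →
        ∃ h : col L x.1 ∈ G, (E ⟨x.1, h⟩).2 ≤ w := by
      intro x hx
      rcases x.2.1 with h | h | h
      · exact absurd (by rw [x.2.2]; exact hc) h
      · rw [x.2.2] at h
        exact absurd h hx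
      · exact h
    have h2 : #{x : P // x ∈ T w ∧ col L x = c} ≤ #(B c ⊕ Iic w) := by
      refine Cardinal.mk_le_of_injective
        (f := fun x => if h : x.1 ∈ B c then Sum.inl ⟨x.1, h⟩
          else Sum.inr ⟨(E ⟨x.1, (key x h).1⟩).2, (key x h).2⟩) ?_
      intro a b hab
      by_cases ha : a.1 ∈ B c <;> by_cases hb : b.1 ∈ B c
      · simp only [dif_pos ha, dif_pos hb, Sum.inl.injEq, Subtype.mk.injEq] at hab
        exact Subtype.ext hab
      · simp only [dif_pos ha, dif_neg hb] at hab
        exact absurd hab (by simp)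
      · simp only [dif_neg ha, dif_pos hb] at hab
        exact absurd hab (by simp)
      · simp only [dif_neg ha, dif_neg hb, Sum.inr.injEq] at hab
        have hab2 : (E ⟨a.1, (key a ha).1⟩).2 = (E ⟨b.1, (key b hb).1⟩).2 :=
          congrArg (fun z : Iic w => (z : θ.ord.ToType)) hab
        have h3 : E ⟨a.1, (key a ha).1⟩ = E ⟨b.1, (key b hb).1⟩ := by
          refine Prod.ext ?_ hab2
          rw [hEcol, hEcol]
          exact a.2.2.trans b.2.2.symm
        have h4 := hEinj h3
        exact Subtype.ext (congrArg (fun z : {x : P // col L x ∈ G} => (z : P)) h4)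
    refine h2.trans ?_
    rw [Cardinal.mk_sum, Cardinal.lift_id, Cardinal.lift_id, hBG c hc]
    exact (Cardinal.add_eq_max (hls.1.trans (hGbig c hc).le)).le
  have hgood : ∀ w, GoodRel L lam M (T w) := by
    intro w c
    by_cases hc : c ∈ G
    · exact ⟨fun h => absurd (hGbig c hc) (not_lt.2 h),
        fun h => lt_of_lt_of_le h (hcntL w c hc)⟩
    · rw [hcntN w c hc]
      exact hP c
  have hTmem : ∀ w, K.Mem (T w) := by
    intro w
    refine ih #(Iic w) (hIic w) (T w) (hgood w) (fun c => ?_)
    by_cases hc : c ∈ G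
    · exact hcntU w c hc
    · rw [hcntN w c hc]
      exact (not_lt.1 hc).trans (le_max_left _ _)
  have hTle : ∀ w w', w ≤ w' → K.Le (T w) (T w') := by
    intro w w' hww
    refine ⟨fun x hx => hXmono w w' hww hx, ?_⟩
    have hkeep := strong_of_keep K hF hR hls (hTmem w') {x : T w' | x.1 ∈ X w} (fun x hx => by
      have hcG : col L x.1 ∈ G := by
        by_contra h
        exact hx (Or.inl h)
      have h3 : lam < #(B (col L x.1)) := by
        rw [hBG _ hcG]
        exact hGbig _ hcG
      refine lt_of_lt_of_le h3 ?_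
      have hcol : ∀ b : B (col L x.1), col L b.1 = col L x.1 := fun b => hBsub _ b.2
      have hmem : ∀ (b : B (col L x.1)) (v : θ.ord.ToType), b.1 ∈ X v := fun b v =>
        Or.inr (Or.inl (by rw [hcol b]; exact b.2))
      refine Cardinal.mk_le_of_injective
        (f := fun b => ⟨⟨b.1, hmem b w'⟩, hmem b w, by
          rw [col_coe, col_coe]
          exact hcol b⟩) ?_
      intro a b hab
      have hab' : a.1 = b.1 := congrArg
        (fun z : {y : T w' // y ∈ {x : T w' | x.1 ∈ X w} ∧ col L y = col L x} => (z.1 : P)) hab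
      exact Subtype.ext hab')
    have h2 : (T w).comap (T w').subtype.toHom = subOf hF {x : T w' | x.1 ∈ X w} := by
      ext x
      rfl
    rw [h2]
    exact hkeep
  have hmono : Monotone T := fun w w' hww => (hTle w w' hww).1
  obtain ⟨h1, -⟩ := K.chain_union' T hmono hTle
  have hsup : (⨆ w, T w) = ⊤ := by
    ext x
    rw [Substructure.mem_iSup_of_directed hmono.directed_le]
    simp only [Substructure.mem_top, iff_true]
    by_cases hc : col L x ∈ G
    · exact ⟨(E ⟨x, hc⟩).2, Or.inr (Or.inr ⟨hc, le_rfl⟩)⟩
    · exact ⟨hneW.some, Or.inl hc⟩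
  rw [hsup] at h1
  exact K.mem_of_equiv Substructure.topEquiv h1

/-- Changing the sizes of the big colour classes of a model of `K` gives a model of `K`. -/
theorem mem_of_goodRel {lam : Cardinal.{u}} (hls : K.LSWitness lam) {M P : Type u}
    [L.Structure M] [L.Structure P] (hM : K.Mem M) (hP : GoodRel L lam M P) : K.Mem P :=
  mem_of_goodRel_aux K hF hR hls hM #P P hP
    (fun _ => (Cardinal.mk_subtype_le _).trans (le_max_right _ _))

end Vale.Agent.Lib.P307
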