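import Vale.Agent.Lib.P307.Colour

/-!
# Shrinking big colour classes

In a unary relational vocabulary, a subset of a model of `K` that keeps, for every colour,
either all elements or more than `lam` elements of that colour is a `≤_K`-substructure.
-/

namespace Vale.Agent.Lib.P307

open FirstOrder Language Cardinal Set

universe u

variable {L : FirstOrder.Language.{u, u}}
variable (K : AEC L) (hF : ∀ n, IsEmpty (L.Functions n))
  (hR : ∀ n, n ≠ 1 → IsEmpty (L.Relations n))

theorem mem_subOf {M : Type u} [L.Structure M] (s : Set M) (x : M) :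
    x ∈ subOf hF s ↔ x ∈ s := Iff.rfl

include hR

theorem exists_strong_between {lam : Cardinal.{u}} (hls : K.LSWitness lam) {M : Type u}
    [L.Structure M] (hM : K.Mem M) (X : Set M)
    (hX : ∀ x, x ∉ X → lam < #{y : M // y ∈ X ∧ col L y = col L x})
    (A : Set M) (hAX : A ⊆ X) (hA : #A ≤ lam) :
    ∃ N : Set M, A ⊆ N ∧ N ⊆ X ∧ #N ≤ lam ∧ K.Strong (subOf hF N) := by
  classical
  obtain ⟨N0, hN0, hAN0, hc⟩ := hls.2.2 M hM A
  have hN0c : #N0 ≤ lam := hc.trans (by rw [Cardinal.add_eq_right hls.1 hA])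
  let D : Set M := {x | x ∈ N0 ∧ x ∉ X}
  let Y : Set M := {y | y ∈ X ∧ y ∉ N0}
  have hfib : ∀ c, #{d : D // col L d.1 = c} ≤ #{y : Y // col L y.1 = c} := by
    intro c
    by_cases hemp : IsEmpty {d : D // col L d.1 = c}
    · rw [Cardinal.mk_eq_zero_iff.2 hemp]
      exact zero_le
    · rw [not_isEmpty_iff] at hemp
      obtain ⟨⟨⟨d0, hd0N, hd0X⟩, hd0c⟩⟩ := hemp
      have h1 : #{d : D // col L d.1 = c} ≤ lam := by
        refine le_trans ?_ hN0c
        refine Cardinal.mk_le_of_injective (f := fun d => (⟨d.1.1, d.1.2.1⟩ : N0)) ?_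
        intro a b hab
        have hab' : a.1.1 = b.1.1 := congrArg (fun z : N0 => (z : M)) hab
        exact Subtype.ext (Subtype.ext hab')
      have h2 : lam < #{y : M // y ∈ X ∧ col L y = c} := by
        have := hX d0 hd0X
        simp only at hd0c
        rwa [hd0c] at this
      have h3 : #{y : M // y ∈ X ∧ col L y = c} ≤ #{y : Y // col L y.1 = c} + #N0 := by
        have h4 : #{y : M // y ∈ X ∧ col L y = c} ≤ #({y : Y // col L y.1 = c} ⊕ N0) := by
          refine Cardinal.mk_le_of_injective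
            (f := fun y => if h : y.1 ∈ N0 then Sum.inr ⟨y.1, h⟩
              else Sum.inl ⟨⟨y.1, y.2.1, h⟩, y.2.2⟩) ?_
          intro a b hab
          by_cases ha : a.1 ∈ N0 <;> by_cases hb : b.1 ∈ N0
          · simp only [dif_pos ha, dif_pos hb, Sum.inr.injEq, Subtype.mk.injEq] at hab
            exact Subtype.ext hab
          · simp only [dif_pos ha, dif_neg hb] at hab
            exact absurd hab (by simp)
          · simp only [dif_neg ha, dif_pos hb] at hab
            exact absurd hab (by simp)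
          · simp only [dif_neg ha, dif_neg hb, Sum.inl.injEq, Subtype.mk.injEq] at hab
            exact Subtype.ext hab
        simpa using h4
      by_contra hcon
      have h5 : #{y : Y // col L y.1 = c} ≤ lam := (le_of_not_ge hcon).trans h1
      have h6 : #{y : M // y ∈ X ∧ col L y = c} ≤ lam :=
        h3.trans (by
          calc #{y : Y // col L y.1 = c} + #N0 ≤ lam + lam := add_le_add h5 hN0c
            _ = lam := Cardinal.add_eq_self hls.1)
      exact absurd h2 (not_lt.2 h6)
  obtain ⟨j, hjinj, hjcol⟩ := exists_embedding_of_fibers (fun d : D => col L d.1)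
    (fun y : Y => col L y.1) hfib
  let g : D → M := fun d => (j d).1
  have hgX : ∀ d, g d ∈ X := fun d => (j d).2.1
  have hgN : ∀ d, g d ∉ N0 := fun d => (j d).2.2
  have hgcol : ∀ d : D, col L (g d) = col L d.1 := hjcol
  have hginj : Function.Injective g := fun a b h => hjinj (Subtype.ext h)
  let sw : M → M := fun x => if hx : x ∈ D then g ⟨x, hx⟩
    else if hx' : ∃ d : D, g d = x then (Classical.choose hx').1 else x
  have hsw1 : ∀ (x : M) (hx : x ∈ D), sw x = g ⟨x, hx⟩ := by
    intro x hx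
    simp only [sw]
    rw [dif_pos hx]
  have hgD : ∀ d : D, g d ∉ D := fun d h => h.2 (hgX d)
  have hsw2 : ∀ d : D, sw (g d) = d.1 := by
    intro d
    have hex : ∃ d' : D, g d' = g d := ⟨d, rfl⟩
    simp only [sw]
    rw [dif_neg (hgD d), dif_pos hex]
    exact congrArg Subtype.val (hginj (Classical.choose_spec hex))
  have hsw3 : ∀ x, x ∉ D → (¬ ∃ d : D, g d = x) → sw x = x := by
    intro x h1 h2
    simp only [sw]
    rw [dif_neg h1, dif_neg h2]
  have hinv : Function.Involutive sw := by
    intro x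
    by_cases hx : x ∈ D
    · rw [hsw1 x hx]
      exact hsw2 ⟨x, hx⟩
    · by_cases hx' : ∃ d : D, g d = x
      · obtain ⟨d, rfl⟩ := hx'
        rw [hsw2 d, hsw1 d.1 d.2]
      · rw [hsw3 x hx hx', hsw3 x hx hx']
  have hswcol : ∀ x, col L (sw x) = col L x := by
    intro x
    by_cases hx : x ∈ D
    · rw [hsw1 x hx]
      exact hgcol ⟨x, hx⟩
    · by_cases hx' : ∃ d : D, g d = x
      · obtain ⟨d, rfl⟩ := hx'
        rw [hsw2 d]
        exact (hgcol d).symm
      · rw [hsw3 x hx hx']
  let f : M ≃[L] M := equivOfCol hF hR (Function.Involutive.toPerm sw hinv) hswcol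
  refine ⟨sw '' (N0 : Set M), ?_, ?_, ?_, ?_⟩
  · intro a ha
    refine ⟨a, hAN0 ha, hsw3 a (fun h => h.2 (hAX ha)) ?_⟩
    rintro ⟨d, hd⟩
    exact hgN d (hd ▸ hAN0 ha)
  · rintro _ ⟨x, hx, rfl⟩
    by_cases hxD : x ∈ D
    · rw [hsw1 x hxD]
      exact hgX _
    · have hxX : x ∈ X := by
        by_contra h
        exact hxD ⟨hx, h⟩
      have hnot : ¬ ∃ d : D, g d = x := by
        rintro ⟨d, hd⟩
        exact hgN d (hd ▸ hx)
      rw [hsw3 x hxD hnot]
      exact hxX
  · exact Cardinal.mk_image_le.trans hN0c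
  · have h := K.strong_of_equiv f N0 hN0
    have h2 : N0.map f.toHom = subOf hF (sw '' (N0 : Set M)) := by
      ext x
      rw [Substructure.mem_map, mem_subOf hF]
      constructor
      · rintro ⟨y, hy, rfl⟩
        exact ⟨y, hy, rfl⟩
      · rintro ⟨y, hy, rfl⟩
        exact ⟨y, hy, rfl⟩
    rwa [h2] at h

/-- Shrinking: if `X` keeps, for every colour, all elements or more than `lam` elements of
that colour, then `X ≤_K M`. -/
theorem strong_of_keep {lam : Cardinal.{u}} (hls : K.LSWitness lam) {M : Type u}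
    [L.Structure M] (hM : K.Mem M) (X : Set M)
    (hX : ∀ x, x ∉ X → lam < #{y : M // y ∈ X ∧ col L y = col L x}) :
    K.Strong (subOf hF X) := by
  let I : Type u := {N : Set M // N ⊆ X ∧ #N ≤ lam ∧ K.Strong (subOf hF N)}
  let S : I → L.Substructure M := fun N => subOf hF N.1
  have hne : Nonempty I := by
    obtain ⟨N, -, h2, h3, h4⟩ := exists_strong_between K hF hR hls hM X hX ∅
      (Set.empty_subset _) (by simp)
    exact ⟨⟨N, h2, h3, h4⟩⟩
  have hd : Directed (· ≤ ·) S := by
    intro N1 N2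
    obtain ⟨N, h1, h2, h3, h4⟩ := exists_strong_between K hF hR hls hM X hX (N1.1 ∪ N2.1)
      (Set.union_subset N1.2.1 N2.2.1)
      ((Cardinal.mk_union_le _ _).trans
        ((add_le_add N1.2.2.1 N2.2.2.1).trans (Cardinal.add_eq_self hls.1).le))
    exact ⟨⟨N, h2, h3, h4⟩, fun x hx => h1 (Or.inl hx), fun x hx => h1 (Or.inr hx)⟩
  have hS : ∀ i j, S i ≤ S j → K.Le (S i) (S j) := fun i j h =>
    AEC.Le.coherence ((K.le_top_iff).2 i.2.2.2) ((K.le_top_iff).2 j.2.2.2) h
  have hdu := K.isDU S hd hS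
  have hsup : (⨆ i, S i) = subOf hF X := by
    ext x
    rw [Substructure.mem_iSup_of_directed hd, mem_subOf hF]
    constructor
    · rintro ⟨i, hi⟩
      exact i.2.1 hi
    · intro hx
      obtain ⟨N, h1, h2, h3, h4⟩ := exists_strong_between K hF hR hls hM X hX {x}
        (Set.singleton_subset_iff.2 hx)
        (by
          rw [Cardinal.mk_singleton]
          exact (Cardinal.one_lt_aleph0.le).trans hls.1)
      exact ⟨⟨N, h2, h3, h4⟩, h1 rfl⟩
  have h := hdu.2.2 ⊤ (fun i => (K.le_top_iff).2 i.2.2.2)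
  rw [hsup] at h
  exact (K.le_top_iff).1 h

end Vale.Agent.Lib.P307
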