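import Vale.Agent.Lib.P307.Grow

/-!
# Eventual categoricity for abstract elementary classes in a unary relational vocabulary
-/

namespace Vale.Agent.Lib.P307

open FirstOrder Language Cardinal Set

universe u

variable {L : FirstOrder.Language.{u, u}}

/-- The underlying type of a structure with `a c` elements of colour `c`, for every `c`. -/
def CS (L : FirstOrder.Language.{u, u}) (a : Set (L.Relations 1) → Cardinal.{u}) : Type u :=
  Σ c : Set (L.Relations 1), (a c).out

/-- The structure on `CS L a`: the element `⟨c, y⟩` has colour `c`. -/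
@[instance_reducible]
def csStr (hF : ∀ n, IsEmpty (L.Functions n)) (a : Set (L.Relations 1) → Cardinal.{u}) :
    L.Structure (CS L a) where
  funMap {n} f := (hF n).elim f
  RelMap {n} r xs := ∃ h : n = 1, (h ▸ r : L.Relations 1) ∈ (xs ⟨0, by omega⟩).1

theorem col_cs (hF : ∀ n, IsEmpty (L.Functions n)) (a : Set (L.Relations 1) → Cardinal.{u})
    (x : CS L a) : letI := csStr hF a; col L x = x.1 := by
  let := csStr hF a
  ext r
  constructor
  · rintro ⟨h, hr⟩
    exact hr
  · intro hr
    exact ⟨rfl, hr⟩

theorem cnt_cs (hF : ∀ n, IsEmpty (L.Functions n)) (a : Set (L.Relations 1) → Cardinal.{u})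
    (c : Set (L.Relations 1)) : letI := csStr hF a; cnt L (CS L a) c = a c := by
  let := csStr hF a
  have h1 : cnt L (CS L a) c = #((a c).out) := by
    refine Cardinal.eq.2 ⟨(Equiv.subtypeEquivRight (fun x : CS L a => ?_)).trans
      (Equiv.sigmaSubtype c)⟩
    rw [col_cs hF a x]
  rw [h1, Cardinal.mk_out]

theorem mk_cs (a : Set (L.Relations 1) → Cardinal.{u}) : #(CS L a) = Cardinal.sum a := by
  unfold CS
  rw [Cardinal.mk_sigma]
  simp only [Cardinal.mk_out]

theorem card_col_le {lam : Cardinal.{u}} (hl : L.card ≤ lam) :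
    #(Set (L.Relations 1)) ≤ 2 ^ lam := by
  rw [Cardinal.mk_set]
  refine Cardinal.power_le_power_left two_ne_zero (le_trans ?_ hl)
  have h : #(L.Relations 1) ≤ #L.Symbols :=
    Cardinal.mk_le_of_injective (f := fun r => Sum.inr ⟨1, r⟩) (by
      intro a b h
      simpa using h)
  exact h

theorem mk_cs_eq {lam θ : Cardinal.{u}} (h0 : ℵ₀ ≤ lam) (hl : L.card ≤ lam)
    (hθ : 2 ^ lam < θ) (a : Set (L.Relations 1) → Cardinal.{u}) (hle : ∀ c, a c ≤ θ)
    (hex : ∃ d, a d = θ) : #(CS L a) = θ := by
  rw [mk_cs]
  obtain ⟨d, hd⟩ := hex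
  refine le_antisymm ?_ (hd ▸ Cardinal.le_sum a d)
  have hinf : ℵ₀ ≤ θ := (h0.trans (Cardinal.cantor lam).le).trans hθ.le
  calc Cardinal.sum a ≤ Cardinal.sum (fun _ : Set (L.Relations 1) => θ) :=
        Cardinal.sum_le_sum _ _ hle
    _ = #(Set (L.Relations 1)) * θ := Cardinal.sum_const' _ _
    _ ≤ θ * θ := mul_le_mul' ((card_col_le hl).trans hθ.le) le_rfl
    _ = θ := Cardinal.mul_eq_self hinf

theorem card_small_le {lam : Cardinal.{u}} (h0 : ℵ₀ ≤ lam) (hl : L.card ≤ lam) (N : Type u)
    [L.Structure N] : #{x : N // cnt L N (col L x) ≤ lam} ≤ 2 ^ lam := by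
  have h1 : #{x : N // cnt L N (col L x) ≤ lam} ≤ #(Set (L.Relations 1)) * lam := by
    refine Cardinal.mk_le_mk_mul_of_mk_preimage_le (fun x => col L x.1) (fun c => ?_)
    by_cases hc : cnt L N c ≤ lam
    · refine le_trans ?_ hc
      refine Cardinal.mk_le_of_injective
        (f := fun x => (⟨x.1.1, x.2⟩ : {x : N // col L x = c})) ?_
      intro a b hab
      have hab' : a.1.1 = b.1.1 := congrArg (fun z : {x : N // col L x = c} => (z : N)) hab
      exact Subtype.ext (Subtype.ext hab')
    · have hemp : IsEmpty ((fun x : {x : N // cnt L N (col L x) ≤ lam} => col L x.1) ⁻¹' {c}) :=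
        ⟨fun x => hc (by
          have h2 := x.1.2
          have h3 : col L x.1.1 = c := x.2
          rwa [h3] at h2)⟩
      rw [Cardinal.mk_eq_zero_iff.2 hemp]
      exact zero_le
  refine h1.trans ?_
  have h2 : ℵ₀ ≤ (2 : Cardinal.{u}) ^ lam := h0.trans (Cardinal.cantor lam).le
  calc #(Set (L.Relations 1)) * lam ≤ 2 ^ lam * 2 ^ lam :=
        mul_le_mul' (card_col_le hl) (Cardinal.cantor lam).le
    _ = 2 ^ lam := Cardinal.mul_eq_self h2

theorem exists_big {lam : Cardinal.{u}} (h0 : ℵ₀ ≤ lam) (hl : L.card ≤ lam) (N : Type u)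
    [L.Structure N] (hN : 2 ^ lam < #N) : ∃ c, lam < cnt L N c := by
  by_contra h
  have h' : ∀ c, cnt L N c ≤ lam := fun c => not_lt.1 (fun hc => h ⟨c, hc⟩)
  have h2 : #N ≤ 2 ^ lam := by
    refine le_trans ?_ (card_small_le h0 hl N)
    exact Cardinal.mk_le_of_injective
      (f := fun x => (⟨x, h' _⟩ : {x : N // cnt L N (col L x) ≤ lam}))
      (fun a b hab => congrArg (fun z : {x : N // cnt L N (col L x) ≤ lam} => (z : N)) hab)
  exact absurd hN (not_lt.2 h2)

/-- Eventual categoricity for abstract elementary classes in a vocabulary consisting of unary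
relation symbols only: categoricity in one cardinal above `2 ^ lam`, where `LS(K) ≤ lam`,
implies categoricity in all cardinals above `2 ^ lam`. -/
theorem unary_categoricity (hF : ∀ n, IsEmpty (L.Functions n))
    (hR : ∀ n, n ≠ 1 → IsEmpty (L.Relations n)) (K : AEC L) {lam kap kap' : Cardinal.{u}}
    (hLS : K.LS ≤ lam) (hk : 2 ^ lam < kap) (hcat : K.Categorical kap) (hk' : 2 ^ lam < kap') :
    K.Categorical kap' := by
  classical
  have hls := K.lsWitness_of_LS_le hLS
  have h0 : ℵ₀ ≤ lam := hls.1
  have hl : L.card ≤ lam := hls.2.1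
  have hlam2 : lam < 2 ^ lam := Cardinal.cantor lam
  have hsucc : Order.succ lam ≤ 2 ^ lam := Order.succ_le_of_lt hlam2
  obtain ⟨⟨M0, iM0, hM0, hM0c⟩, huniq⟩ := hcat
  obtain ⟨c0, hc0⟩ := exists_big h0 hl M0 (hM0c ▸ hk)
  let vec : Set (L.Relations 1) → Cardinal.{u} → Set (L.Relations 1) → Cardinal.{u} :=
    fun d θ c => if c = d then θ else if cnt L M0 c ≤ lam then cnt L M0 c else Order.succ lam
  have hvec_good : ∀ d θ, lam < cnt L M0 d → lam < θ →
      (letI := csStr hF (vec d θ); GoodRel L lam M0 (CS L (vec d θ))) := by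
    intro d θ hd hθ
    let := csStr hF (vec d θ)
    intro c
    rw [cnt_cs hF]
    constructor
    · intro hc
      have hcd : c ≠ d := fun h => absurd hd (not_lt.2 (h ▸ hc))
      simp only [vec, if_neg hcd, if_pos hc]
    · intro hc
      by_cases hcd : c = d
      · simp only [vec, if_pos hcd]
        exact hθ
      · simp only [vec, if_neg hcd, if_neg (not_le.2 hc)]
        exact Order.lt_succ lam
  have hvec_card : ∀ d θ, 2 ^ lam < θ → #(CS L (vec d θ)) = θ := by
    intro d θ hθ
    refine mk_cs_eq h0 hl hθ (vec d θ) (fun c => ?_) ⟨d, by simp only [vec, if_pos rfl]⟩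
    by_cases hcd : c = d
    · simp only [vec, if_pos hcd]
      exact le_rfl
    · by_cases hc : cnt L M0 c ≤ lam
      · simp only [vec, if_neg hcd, if_pos hc]
        exact hc.trans (hlam2.le.trans hθ.le)
      · simp only [vec, if_neg hcd, if_neg hc]
        exact hsucc.trans hθ.le
  have hvec_mem : ∀ d θ, lam < cnt L M0 d → 2 ^ lam < θ →
      (letI := csStr hF (vec d θ); K.Mem (CS L (vec d θ))) := by
    intro d θ hd hθ
    let := csStr hF (vec d θ)
    exact mem_of_goodRel K hF hR hls hM0 (hvec_good d θ hd (hlam2.trans hθ))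
  have hc0_unique : ∀ c, lam < cnt L M0 c → c = c0 := by
    intro c1 hc1
    by_contra hne
    let i1 := csStr hF (vec c0 kap)
    let i2 := csStr hF (vec c1 kap)
    obtain ⟨e⟩ := huniq (CS L (vec c0 kap)) (CS L (vec c1 kap)) (hvec_mem c0 kap hc0 hk)
      (hvec_mem c1 kap hc1 hk) (hvec_card c0 kap hk) (hvec_card c1 kap hk)
    have h1 := congrFun (cnt_eq_of_equiv e) c0
    rw [cnt_cs hF, cnt_cs hF] at h1
    have hne' : c0 ≠ c1 := fun h => hne h.symm
    simp only [vec, if_pos rfl, if_neg hne', if_neg (not_le.2 hc0)] at h1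
    exact absurd (h1 ▸ hk) (not_lt.2 hsucc)
  refine ⟨?_, ?_⟩
  · exact ⟨CS L (vec c0 kap'), csStr hF (vec c0 kap'), hvec_mem c0 kap' hc0 hk',
      hvec_card c0 kap' hk'⟩
  · have key : ∀ (N : Type u) [L.Structure N], K.Mem N → #N = kap' →
        cnt L N = fun c => if c = c0 then kap' else cnt L M0 c := by
      intro N _ hN hNc
      obtain ⟨cN, hcN⟩ := exists_big h0 hl N (hNc ▸ hk')
      let aQ : Set (L.Relations 1) → Cardinal.{u} :=
        fun c => if cnt L N c ≤ lam then cnt L N c else kap
      let iQ := csStr hF aQ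
      have hQgood : GoodRel L lam N (CS L aQ) := by
        intro c
        rw [cnt_cs hF]
        constructor
        · intro hc
          simp only [aQ, if_pos hc]
        · intro hc
          simp only [aQ, if_neg (not_le.2 hc)]
          exact hlam2.trans hk
      have hQmem : K.Mem (CS L aQ) := mem_of_goodRel K hF hR hls hN hQgood
      have hQcard : #(CS L aQ) = kap := by
        refine mk_cs_eq h0 hl hk aQ (fun c => ?_)
          ⟨cN, by simp only [aQ, if_neg (not_le.2 hcN)]⟩
        by_cases hc : cnt L N c ≤ lam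
        · simp only [aQ, if_pos hc]
          exact hc.trans (hlam2.le.trans hk.le)
        · simp only [aQ, if_neg hc]
          exact le_rfl
      obtain ⟨e⟩ := huniq (CS L aQ) M0 hQmem hM0 hQcard hM0c
      have hQ : ∀ c, aQ c = cnt L M0 c := fun c => by
        have h := congrFun (cnt_eq_of_equiv e) c
        rwa [cnt_cs hF] at h
      have hbigN : ∀ c, lam < cnt L N c → c = c0 := by
        intro c hc
        apply hc0_unique
        rw [← hQ c]
        simp only [aQ, if_neg (not_le.2 hc)]
        exact hlam2.trans hk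
      have hsmallN : ∀ c, c ≠ c0 → cnt L N c = cnt L M0 c := by
        intro c hc
        have hle : cnt L N c ≤ lam := by
          by_contra h
          exact hc (hbigN c (not_le.1 h))
        rw [← hQ c]
        simp only [aQ, if_pos hle]
      have hc0N : cnt L N c0 = kap' := by
        refine le_antisymm (hNc ▸ Cardinal.mk_subtype_le _) ?_
        by_contra hlt
        have hlt' : cnt L N c0 < kap' := not_le.1 hlt
        have h1 : #N ≤ #({x : N // col L x = c0} ⊕ {x : N // cnt L N (col L x) ≤ lam}) := by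
          refine Cardinal.mk_le_of_injective
            (f := fun x => if h : col L x = c0 then Sum.inl ⟨x, h⟩
              else Sum.inr ⟨x, by
                by_contra h2
                exact h (hbigN _ (not_le.1 h2))⟩) ?_
          intro a b hab
          by_cases ha : col L a = c0 <;> by_cases hb : col L b = c0
          · simp only [dif_pos ha, dif_pos hb, Sum.inl.injEq, Subtype.mk.injEq] at hab
            exact hab
          · simp only [dif_pos ha, dif_neg hb] at hab
            exact absurd hab (by simp)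
          · simp only [dif_neg ha, dif_pos hb] at hab
            exact absurd hab (by simp)
          · simp only [dif_neg ha, dif_neg hb, Sum.inr.injEq, Subtype.mk.injEq] at hab
            exact hab
        rw [Cardinal.mk_sum, Cardinal.lift_id, Cardinal.lift_id, hNc] at h1
        have hinf' : ℵ₀ ≤ kap' := (h0.trans hlam2.le).trans hk'.le
        have h2 : #{x : N // col L x = c0} + #{x : N // cnt L N (col L x) ≤ lam} < kap' :=
          Cardinal.add_lt_of_lt hinf' hlt' (lt_of_le_of_lt (card_small_le h0 hl N) hk')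
        exact absurd h1 (not_le.2 h2)
      funext c
      by_cases hc : c = c0
      · rw [if_pos hc, hc]
        exact hc0N
      · rw [if_neg hc]
        exact hsmallN c hc
    intro N1 N2 _ _ hN1 hN2 hc1 hc2
    exact nonempty_equiv_of_cnt hF hR ((key N1 hN1 hc1).trans (key N2 hN2 hc2).symm)

end Vale.Agent.Lib.P307
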